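import Vale.Agent.P370Z.SLAB.Plane
import Vale.Agent.P370Z.POIS.Kernel

/-! The potential of the uniformly charged slab. -/

namespace Vale.Agent.P370Z

open MeasureTheory Finset Filter Topology

noncomputable section

namespace SLAB

/-- The third coordinate, then the first two. -/
def crd : P3 ≃ᵐ ℝ × (ℝ × ℝ) :=
  (MeasurableEquiv.piFinSuccAbove (fun _ : Fin 3 => ℝ) 2).trans
    (MeasurableEquiv.prodCongr (MeasurableEquiv.refl ℝ) MeasurableEquiv.finTwoArrow)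

lemma crd_apply (y : P3) : crd y = (y 2, (y 0, y 1)) := rfl

lemma crd_mp : MeasurePreserving crd volume volume :=
  (volume_preserving_piFinSuccAbove (fun _ : Fin 3 => ℝ) 2).trans
    ((MeasurePreserving.id volume).prod (volume_preserving_finTwoArrow ℝ))

/-- The integral of the kernel over the slab, layer by layer. -/
lemma layers (L Lz : ℕ) (x : P3) :
    IntegrableOn (fun z => Asq L (x 0) (x 1) (x 2 - z)) (Set.Icc (-(Lz : ℝ)) Lz) ∧
    ∫ y in box ![L, L, Lz], 1 / nrm (x - y) =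
      ∫ z in Set.Icc (-(Lz : ℝ)) Lz, Asq L (x 0) (x 1) (x 2 - z) := by
  set f : ℝ × (ℝ × ℝ) → ℝ := fun q => kz (x 2 - q.1) (x 0 - q.2.1) (x 1 - q.2.2) with hf
  have e1 : ∀ y : P3, 1 / nrm (x - y) = f (crd y) := by
    intro y
    simp [hf, crd_apply, kz, nrm, Fin.sum_univ_three]
  have e2 : box ![L, L, Lz] = crd ⁻¹' (Set.Icc (-(Lz : ℝ)) Lz ×ˢ sq L) := by
    ext y
    simp only [box, Set.mem_ofPred_eq, Set.mem_preimage, crd_apply, sq, Set.mem_prod, Set.mem_Icc,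
      Fin.forall_fin_succ, abs_le]
    simp
    tauto
  have h1 := POIS.integrableOn_box ![L, L, Lz] x
  simp only [e1, e2] at h1 ⊢
  have h2 : IntegrableOn f (Set.Icc (-(Lz : ℝ)) Lz ×ˢ sq L) :=
    (crd_mp.integrableOn_comp_preimage crd.measurableEmbedding).1 h1
  rw [crd_mp.setIntegral_preimage_emb crd.measurableEmbedding]
  rw [Measure.volume_eq_prod] at h2 ⊢
  refine ⟨?_, setIntegral_prod f h2⟩
  rw [IntegrableOn, ← Measure.prod_restrict] at h2
  exact h2.integral_prod_left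

lemma integral_abs_sub {M z : ℝ} (hz : |z| ≤ M) :
    ∫ t in Set.Icc (-M) M, |z - t| = M ^ 2 + z ^ 2 := by
  obtain ⟨h1, h2⟩ := abs_le.1 hz
  have hc : Continuous fun t : ℝ => |z - t| := by fun_prop
  rw [integral_Icc_eq_integral_Ioc, ← intervalIntegral.integral_of_le (by linarith),
    ← intervalIntegral.integral_add_adjacent_intervals (b := z) (hc.intervalIntegrable _ _)
      (hc.intervalIntegrable _ _)]
  have e1 : ∫ t in (-M)..z, |z - t| = ∫ t in (-M)..z, (z - t) := by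
    refine intervalIntegral.integral_congr fun t ht => ?_
    rw [Set.uIcc_of_le h1] at ht
    exact abs_of_nonneg (by linarith [ht.2])
  have e2 : ∫ t in z..M, |z - t| = ∫ t in z..M, (t - z) := by
    refine intervalIntegral.integral_congr fun t ht => ?_
    rw [Set.uIcc_of_le h2] at ht
    rw [abs_of_nonpos (by linarith [ht.1]), neg_sub]
  rw [e1, e2, intervalIntegral.integral_sub intervalIntegrable_const
    intervalIntegral.intervalIntegrable_id, intervalIntegral.integral_sub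
    intervalIntegral.intervalIntegrable_id intervalIntegrable_const]
  simp only [intervalIntegral.integral_const, integral_id, smul_eq_mul]
  ring

lemma integral_affine_abs {M z : ℝ} (hz : |z| ≤ M) (c : ℝ) :
    IntegrableOn (fun t => c - 2 * Real.pi * |z - t|) (Set.Icc (-M) M) ∧
    ∫ t in Set.Icc (-M) M, (c - 2 * Real.pi * |z - t|) =
      2 * M * c - 2 * Real.pi * (M ^ 2 + z ^ 2) := by
  have hM : 0 ≤ M := (abs_nonneg z).trans hz
  have hc : Continuous fun t : ℝ => 2 * Real.pi * |z - t| := by fun_prop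
  refine ⟨(continuous_const.sub hc).integrableOn_Icc, ?_⟩
  rw [integral_sub continuous_const.integrableOn_Icc hc.integrableOn_Icc, integral_const_mul,
    integral_abs_sub hz, setIntegral_const, Real.volume_real_Icc_of_le (by linarith), smul_eq_mul]
  ring

lemma ae_ne (z : ℝ) (s : Set ℝ) : ∀ᵐ t ∂(volume.restrict s), z - t ≠ 0 := by
  refine ae_restrict_of_ae ?_
  have : ∀ᵐ t : ℝ, t ≠ z := by rw [ae_iff]; simp
  filter_upwards [this] with t ht
  exact sub_ne_zero.2 ht.symm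

lemma J_le (L Lz : ℕ) (hL : 0 < (L : ℝ)) (x : P3) :
    ∫ y in box ![L, L, Lz], 1 / nrm (x - y) ≤ 2 * Lz * L * kap0 -
      2 * Real.pi * ((Lz : ℝ) ^ 2 + min (x 2 ^ 2) ((Lz : ℝ) ^ 2)) +
      8 * Real.pi * (Lz : ℝ) ^ 3 / L := by
  have hM : (0 : ℝ) ≤ Lz := by positivity
  obtain ⟨z, hz, hz2, hz3⟩ : ∃ z : ℝ, |z| ≤ Lz ∧ z ^ 2 = min (x 2 ^ 2) ((Lz : ℝ) ^ 2) ∧
      ∀ t ∈ Set.Icc (-(Lz : ℝ)) Lz, |z - t| ≤ |x 2 - t| := by
    rcases le_total (x 2) (-(Lz : ℝ)) with h | h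
    · refine ⟨-(Lz : ℝ), by simp, ?_, fun t ht => ?_⟩
      · rw [min_eq_right (by nlinarith)]
        ring
      · rw [abs_of_nonpos (by linarith [ht.1]), abs_of_nonpos (by linarith [ht.1])]
        linarith
    · rcases le_total (x 2) Lz with h' | h'
      · exact ⟨x 2, abs_le.2 ⟨h, h'⟩, (min_eq_left (by nlinarith)).symm, fun _ _ => le_rfl⟩
      · refine ⟨Lz, by simp, (min_eq_right (by nlinarith)).symm, fun t ht => ?_⟩
        rw [abs_of_nonneg (by linarith [ht.2]), abs_of_nonneg (by linarith [ht.2])]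
        linarith
  obtain ⟨i1, e1⟩ := layers L Lz x
  obtain ⟨i2, e2⟩ := integral_affine_abs hz (L * kap0 + 4 * Real.pi * (Lz : ℝ) ^ 2 / L)
  rw [e1, ← hz2]
  refine le_trans (setIntegral_mono_ae_restrict i1 i2 ?_) (le_of_eq ?_)
  · filter_upwards [ae_ne z _, ae_restrict_mem measurableSet_Icc] with t ht hmem
    have h1 := hz3 t hmem
    have h2 : x 2 - t ≠ 0 := by
      intro h
      rw [h, abs_zero, abs_nonpos_iff] at h1
      exact ht h1
    have h3 := Asq_le hL.le h2 (x 0) (x 1)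
    have h4 := Asq_anti (L := L) ht h1
    have h5 := Asq_center_le hL ht
    have h6 : (z - t) ^ 2 ≤ 4 * (Lz : ℝ) ^ 2 := by
      obtain ⟨a1, a2⟩ := abs_le.1 hz
      nlinarith [hmem.1, hmem.2]
    have h7 : Real.pi * (z - t) ^ 2 / L ≤ 4 * Real.pi * (Lz : ℝ) ^ 2 / L := by
      apply div_le_div_of_nonneg_right _ hL.le
      nlinarith [Real.pi_pos]
    linarith
  · rw [e2]
    ring

lemma J_ge (L Lz : ℕ) (hL : 0 < (L : ℝ)) (L0 : ℝ) (x : P3) (h0 : 2 * L0 ≤ L) (ha : |x 0| ≤ L0)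
    (hb : |x 1| ≤ L0) (hz : |x 2| ≤ Lz) :
    2 * Lz * L * kap0 - 2 * Real.pi * ((Lz : ℝ) ^ 2 + x 2 ^ 2) - 128 * L0 ^ 2 * Lz / L ≤
      ∫ y in box ![L, L, Lz], 1 / nrm (x - y) := by
  obtain ⟨i1, e1⟩ := layers L Lz x
  obtain ⟨i2, e2⟩ := integral_affine_abs hz (L * kap0 - 64 * L0 ^ 2 / L)
  rw [e1]
  refine le_trans (le_of_eq ?_) (setIntegral_mono_ae_restrict i2 i1 ?_)
  · rw [e2]
    ring
  · filter_upwards [ae_ne (x 2) _] with t ht
    have h1 := Asq_ge hL ht h0 ha hb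
    have h2 := Asq_center_ge hL ht
    linarith

lemma measurable_slabPot (ρ : ℕ) (l : Fin 3 → ℕ) : Measurable (slabPot ρ l) := by
  have h : Measurable fun q : P3 × P3 => 1 / nrm (q.1 - q.2) :=
    measurable_const.div (POIS.measurable_nrm.comp (measurable_fst.sub measurable_snd))
  exact (h.stronglyMeasurable.integral_prod_right'
    (ν := volume.restrict (box l))).measurable.const_mul _

end SLAB

open SLAB in
theorem slab (ρ L Lz : ℕ) (hLz : 1 ≤ Lz) (hL : Lz ≤ L) :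
    Measurable (slabPot ρ ![L, L, Lz]) ∧
    (∀ x, |slabPot ρ ![L, L, Lz] x| ≤ 100 * ρ * L * Lz) ∧
    (∀ x : P3, -(3 * (ρ : ℝ) / (4 * Real.pi)) * (2 * Lz * L * kap0) + 3 * ρ * (Lz : ℝ) ^ 2 / 2 +
      3 * ρ * min (x 2 ^ 2) ((Lz : ℝ) ^ 2) / 2 - 100 * ρ * (Lz : ℝ) ^ 3 / L ≤
      slabPot ρ ![L, L, Lz] x) ∧
    (∀ (L0 : ℝ) (x : P3), 2 * L0 ≤ L → |x 0| ≤ L0 → |x 1| ≤ L0 → |x 2| ≤ Lz →
      slabPot ρ ![L, L, Lz] x ≤
        -(3 * (ρ : ℝ) / (4 * Real.pi)) * (2 * Lz * L * kap0) + 3 * ρ * (Lz : ℝ) ^ 2 / 2 +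
        3 * ρ * x 2 ^ 2 / 2 + 100 * ρ * (L0 ^ 2 + (Lz : ℝ) ^ 2) * Lz / L) ∧
    0 ≤ kap0 ∧ kap0 ≤ 16 := by
  have h1 : (1 : ℝ) ≤ Lz := by exact_mod_cast hLz
  have h2 : (Lz : ℝ) ≤ L := by exact_mod_cast hL
  have hL0 : (0 : ℝ) < L := by linarith
  have hpi := Real.pi_pos
  have hc : 0 ≤ 3 * (ρ : ℝ) / (4 * Real.pi) := by positivity
  have hc1 : 3 * (ρ : ℝ) / (4 * Real.pi) ≤ ρ / 4 := by
    rw [div_le_div_iff₀ (by positivity) (by norm_num)]
    have : (0 : ℝ) ≤ ρ := by positivity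
    nlinarith [Real.pi_gt_three]
  have hcpi : 3 * (ρ : ℝ) / (4 * Real.pi) * Real.pi = 3 * ρ / 4 := by field_simp
  refine ⟨measurable_slabPot _ _, fun x => ?_, fun x => ?_, fun L0 x h0 ha hb hz => ?_,
    kap0_nonneg, kap0_le⟩
  · have a0 : 0 ≤ ∫ y in box ![L, L, Lz], 1 / nrm (x - y) :=
      integral_nonneg fun y => by have := POIS.nrm_nonneg (x - y); positivity
    have a1 := J_le L Lz hL0 x
    have a2 : 0 ≤ 2 * Real.pi * ((Lz : ℝ) ^ 2 + min (x 2 ^ 2) ((Lz : ℝ) ^ 2)) := by positivity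
    have a3 : 2 * Lz * L * kap0 ≤ 2 * Lz * L * 16 := by
      have := kap0_le
      gcongr
    have a4 : 8 * Real.pi * (Lz : ℝ) ^ 3 / L ≤ 32 * L * Lz := by
      rw [div_le_iff₀ hL0]
      have b1 : (Lz : ℝ) ^ 3 ≤ L * L * Lz := by
        have : (Lz : ℝ) ^ 3 = Lz * Lz * Lz := by ring
        rw [this]
        gcongr
      have b2 : 8 * Real.pi * (Lz : ℝ) ^ 3 ≤ 8 * 4 * (L * L * Lz) := by
        have := Real.pi_le_four
        gcongr
      linarith
    rw [slabPot, neg_mul, abs_neg, abs_of_nonneg (mul_nonneg hc a0)]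
    calc 3 * (ρ : ℝ) / (4 * Real.pi) * ∫ y in box ![L, L, Lz], 1 / nrm (x - y)
        ≤ ρ / 4 * (64 * L * Lz) := mul_le_mul hc1 (by linarith) a0 (by positivity)
      _ ≤ _ := by
        have : (0 : ℝ) ≤ ρ * L * Lz := by positivity
        linarith
  · have a1 := mul_le_mul_of_nonneg_left (J_le L Lz hL0 x) hc
    have a2 : (0 : ℝ) ≤ ρ * (Lz : ℝ) ^ 3 / L := by positivity
    have e : 3 * (ρ : ℝ) / (4 * Real.pi) * (2 * Lz * L * kap0 -
        2 * Real.pi * ((Lz : ℝ) ^ 2 + min (x 2 ^ 2) ((Lz : ℝ) ^ 2)) +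
        8 * Real.pi * (Lz : ℝ) ^ 3 / L) = 3 * (ρ : ℝ) / (4 * Real.pi) * (2 * Lz * L * kap0) -
        3 * ρ * (Lz : ℝ) ^ 2 / 2 - 3 * ρ * min (x 2 ^ 2) ((Lz : ℝ) ^ 2) / 2 +
        6 * (ρ * (Lz : ℝ) ^ 3 / L) := by
      field_simp
      ring
    have e' : 100 * ρ * (Lz : ℝ) ^ 3 / L = 100 * (ρ * (Lz : ℝ) ^ 3 / L) := by ring
    rw [slabPot, e']
    linarith
  · have a1 := mul_le_mul_of_nonneg_left (J_ge L Lz hL0 L0 x h0 ha hb hz) hc
    have e : 3 * (ρ : ℝ) / (4 * Real.pi) * (2 * Lz * L * kap0 -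
        2 * Real.pi * ((Lz : ℝ) ^ 2 + x 2 ^ 2) - 128 * L0 ^ 2 * Lz / L) =
        3 * (ρ : ℝ) / (4 * Real.pi) * (2 * Lz * L * kap0) -
        3 * ρ * (Lz : ℝ) ^ 2 / 2 - 3 * ρ * x 2 ^ 2 / 2 -
        3 * (ρ : ℝ) / (4 * Real.pi) * (128 * L0 ^ 2 * Lz / L) := by
      field_simp
      ring
    have a2 : 3 * (ρ : ℝ) / (4 * Real.pi) * (128 * L0 ^ 2 * Lz / L) ≤
        ρ / 4 * (128 * L0 ^ 2 * Lz / L) := mul_le_mul_of_nonneg_right hc1 (by positivity)
    have a3 : (ρ : ℝ) / 4 * (128 * L0 ^ 2 * Lz / L) ≤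
        100 * ρ * (L0 ^ 2 + (Lz : ℝ) ^ 2) * Lz / L := by
      rw [← mul_div_assoc]
      apply div_le_div_of_nonneg_right _ hL0.le
      have b1 : (0 : ℝ) ≤ ρ * L0 ^ 2 * Lz := by positivity
      have b2 : (0 : ℝ) ≤ ρ * (Lz : ℝ) ^ 2 * Lz := by positivity
      nlinarith
    rw [slabPot]
    linarith

end

end Vale.Agent.P370Z
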