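import Vale.Agent.P370Z.Basic

/-! The potential of a uniformly charged square. -/

namespace Vale.Agent.P370Z.SLAB

open MeasureTheory Set Filter Topology

noncomputable section

/-! ### Shifted intervals -/

lemma shift_id {g : ℝ → ℝ} (hg : Continuous g) (L a : ℝ) :
    (∫ s in (-L)..L, g s) - ∫ s in (-L)..L, g (a - s) =
      ∫ u in (0 : ℝ)..a, (g (u - L) - g (u + L)) := by
  have c1 : Continuous fun u => g (u - L) := by fun_prop
  have c2 : Continuous fun u => g (u + L) := by fun_prop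
  rw [intervalIntegral.integral_comp_sub_left g a,
    intervalIntegral.integral_sub (c1.intervalIntegrable _ _) (c2.intervalIntegrable _ _),
    intervalIntegral.integral_comp_sub_right g L, intervalIntegral.integral_comp_add_right g L,
    intervalIntegral.integral_interval_sub_interval_comm (hg.intervalIntegrable _ _)
      (hg.intervalIntegrable _ _) (hg.intervalIntegrable _ _)]
  simp

lemma shift_le {g : ℝ → ℝ} (hg : Continuous g) (hm : ∀ s s', |s| ≤ |s'| → g s' ≤ g s) {L : ℝ}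
    (hL : 0 ≤ L) (a : ℝ) : ∫ s in (-L)..L, g (a - s) ≤ ∫ s in (-L)..L, g s := by
  rw [← sub_nonneg, shift_id hg]
  rcases le_total 0 a with ha | ha
  · refine intervalIntegral.integral_nonneg ha fun u hu => sub_nonneg.2 (hm _ _ ?_)
    exact sq_le_sq.1 (by nlinarith [hu.1])
  · rw [intervalIntegral.integral_symm, ← intervalIntegral.integral_neg]
    refine intervalIntegral.integral_nonneg ha fun u hu => ?_
    rw [neg_sub]
    exact sub_nonneg.2 (hm _ _ (sq_le_sq.1 (by nlinarith [hu.2])))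

lemma shift_ge {g : ℝ → ℝ} (hg : Continuous g) {L a M : ℝ}
    (hM : ∀ u, |u| ≤ |a| → |g (u - L) - g (u + L)| ≤ M) :
    (∫ s in (-L)..L, g s) - M * |a| ≤ ∫ s in (-L)..L, g (a - s) := by
  have h1 := shift_id hg L a
  have h2 := intervalIntegral.norm_integral_le_of_norm_le_const (a := 0) (b := a) (C := M)
    (f := fun u => g (u - L) - g (u + L)) fun u hu => by
      refine hM u ?_
      rcases le_total 0 a with ha | ha
      · rw [uIoc_of_le ha] at hu
        rw [abs_of_nonneg ha, abs_of_pos hu.1]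
        exact hu.2
      · rw [uIoc_of_ge ha] at hu
        rw [abs_of_nonpos ha, abs_of_nonpos hu.2]
        linarith [hu.1]
  rw [sub_zero, Real.norm_eq_abs] at h2
  linarith [le_abs_self (∫ u in (0 : ℝ)..a, (g (u - L) - g (u + L)))]

/-! ### The kernel -/

/-- The Coulomb kernel in coordinates. -/
def kz (ζ s t : ℝ) : ℝ := 1 / √(s ^ 2 + t ^ 2 + ζ ^ 2)

lemma kz_nonneg (ζ s t : ℝ) : 0 ≤ kz ζ s t := by unfold kz; positivity

lemma kz_comm (ζ s t : ℝ) : kz ζ s t = kz ζ t s := by rw [kz, kz, add_comm (s ^ 2)]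

lemma continuous_kz {ζ : ℝ} (hζ : ζ ≠ 0) : Continuous fun p : ℝ × ℝ => kz ζ p.1 p.2 := by
  unfold kz
  refine continuous_const.div (by fun_prop) fun p => ?_
  have : 0 < ζ ^ 2 := by positivity
  exact (Real.sqrt_pos.2 (by positivity)).ne'

lemma kz_anti {ζ ζ' s s' t t' : ℝ} (hζ : ζ ≠ 0) (h1 : |ζ| ≤ |ζ'|) (h2 : |s| ≤ |s'|)
    (h3 : |t| ≤ |t'|) : kz ζ' s' t' ≤ kz ζ s t := by
  have : 0 < ζ ^ 2 := by positivity
  apply one_div_le_one_div_of_le (Real.sqrt_pos.2 (by positivity))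
  apply Real.sqrt_le_sqrt
  have := sq_le_sq.2 h1
  have := sq_le_sq.2 h2
  have := sq_le_sq.2 h3
  linarith

lemma kz_lip {L u : ℝ} (hL : 0 < L) (hu : 2 * |u| ≤ L) (ζ t : ℝ) :
    |kz ζ (u - L) t - kz ζ (u + L) t| ≤ 16 * |u| / L ^ 2 := by
  have hu1 := le_abs_self u
  have hu2 := neg_abs_le u
  set P := √((u - L) ^ 2 + t ^ 2 + ζ ^ 2) with hP
  set Q := √((u + L) ^ 2 + t ^ 2 + ζ ^ 2) with hQ
  have p1 : L / 2 ≤ P := Real.le_sqrt_of_sq_le (by nlinarith [sq_nonneg t, sq_nonneg ζ])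
  have q1 : L / 2 ≤ Q := Real.le_sqrt_of_sq_le (by nlinarith [sq_nonneg t, sq_nonneg ζ])
  have p2 : P ^ 2 = (u - L) ^ 2 + t ^ 2 + ζ ^ 2 := Real.sq_sqrt (by positivity)
  have q2 : Q ^ 2 = (u + L) ^ 2 + t ^ 2 + ζ ^ 2 := Real.sq_sqrt (by positivity)
  have p0 : 0 < P := by linarith
  have q0 : 0 < Q := by linarith
  have e : kz ζ (u - L) t - kz ζ (u + L) t = 4 * u * L / ((P + Q) * (P * Q)) := by
    rw [kz, kz, ← hP, ← hQ]
    field_simp
    linear_combination q2 - p2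
  rw [e, abs_div, abs_of_pos (by positivity : 0 < (P + Q) * (P * Q)), abs_mul, abs_mul,
    abs_of_pos hL, abs_of_pos (by norm_num : (0 : ℝ) < 4),
    div_le_div_iff₀ (by positivity) (by positivity)]
  have h1 : L / 2 * (L / 2) ≤ P * Q := mul_le_mul p1 q1 (by positivity) p0.le
  have h2 : L * (L / 2 * (L / 2)) ≤ (P + Q) * (P * Q) :=
    mul_le_mul (by linarith) h1 (by positivity) (by positivity)
  nlinarith [abs_nonneg u, mul_le_mul_of_nonneg_left h2 (abs_nonneg u)]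

/-- The square `[-L, L]²`. -/
def sq (L : ℝ) : Set (ℝ × ℝ) := Icc (-L) L ×ˢ Icc (-L) L

lemma isCompact_sq (L : ℝ) : IsCompact (sq L) := isCompact_Icc.prod isCompact_Icc

lemma measurableSet_sq (L : ℝ) : MeasurableSet (sq L) := measurableSet_Icc.prod measurableSet_Icc

/-- The potential of the square at the point with coordinates `a, b, ζ`. -/
def Asq (L a b ζ : ℝ) : ℝ := ∫ p in sq L, kz ζ (a - p.1) (b - p.2)

lemma Asq_iter {L ζ : ℝ} (hL : 0 ≤ L) (hζ : ζ ≠ 0) (a b : ℝ) :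
    Asq L a b ζ = ∫ s in (-L)..L, ∫ t in (-L)..L, kz ζ (a - s) (b - t) := by
  have hc : Continuous fun p : ℝ × ℝ => kz ζ (a - p.1) (b - p.2) :=
    (continuous_kz hζ).comp (f := fun p : ℝ × ℝ => (a - p.1, b - p.2)) (by fun_prop)
  have hLL : -L ≤ L := by linarith
  rw [Asq, sq, Measure.volume_eq_prod, setIntegral_prod _
    (hc.continuousOn.integrableOn_compact (isCompact_Icc.prod isCompact_Icc))]
  simp only [intervalIntegral.integral_of_le hLL, integral_Icc_eq_integral_Ioc]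

/-- The potential of a segment. -/
def seg (L ζ s : ℝ) : ℝ := ∫ t in (-L)..L, kz ζ s t

lemma continuous_seg {ζ : ℝ} (hζ : ζ ≠ 0) (L : ℝ) : Continuous (seg L ζ) :=
  intervalIntegral.continuous_parametric_intervalIntegral_of_continuous' (continuous_kz hζ) _ _

lemma continuous_kz_right {ζ : ℝ} (hζ : ζ ≠ 0) (s : ℝ) : Continuous (kz ζ s) :=
  (continuous_kz hζ).comp (f := fun t : ℝ => (s, t)) (by fun_prop)

lemma continuous_inner {ζ : ℝ} (hζ : ζ ≠ 0) (L a b : ℝ) :
    Continuous fun s => ∫ t in (-L)..L, kz ζ (a - s) (b - t) :=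
  intervalIntegral.continuous_parametric_intervalIntegral_of_continuous'
    (f := fun s t => kz ζ (a - s) (b - t))
    ((continuous_kz hζ).comp (f := fun p : ℝ × ℝ => (a - p.1, b - p.2)) (by fun_prop)) _ _

lemma Asq_zero {L ζ : ℝ} (hL : 0 ≤ L) (hζ : ζ ≠ 0) :
    Asq L 0 0 ζ = ∫ s in (-L)..L, seg L ζ s := by
  rw [Asq_iter hL hζ]
  simp [seg, kz]

lemma Asq_le {L ζ : ℝ} (hL : 0 ≤ L) (hζ : ζ ≠ 0) (a b : ℝ) : Asq L a b ζ ≤ Asq L 0 0 ζ := by
  have hLL : -L ≤ L := by linarith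
  rw [Asq_zero hL hζ, Asq_iter hL hζ]
  refine le_trans ?_ (shift_le (continuous_seg hζ L) (fun s s' h => ?_) hL a)
  · refine intervalIntegral.integral_mono_on hLL
      ((continuous_inner hζ L a b).intervalIntegrable _ _)
      (((continuous_seg hζ L).comp (by fun_prop)).intervalIntegrable _ _) fun s _ => ?_
    exact shift_le (continuous_kz_right hζ (a - s))
      (fun t t' h => kz_anti hζ le_rfl le_rfl h) hL b
  · exact intervalIntegral.integral_mono_on hLL
      ((continuous_kz_right hζ s').intervalIntegrable _ _)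
      ((continuous_kz_right hζ s).intervalIntegrable _ _)
      fun t _ => kz_anti hζ le_rfl h le_rfl

lemma Asq_ge {L ζ L0 a b : ℝ} (hL : 0 < L) (hζ : ζ ≠ 0) (h0 : 2 * L0 ≤ L) (ha : |a| ≤ L0)
    (hb : |b| ≤ L0) : Asq L 0 0 ζ - 64 * L0 ^ 2 / L ≤ Asq L a b ζ := by
  have hLL : -L ≤ L := by linarith
  have hL0 : 0 ≤ L0 := (abs_nonneg a).trans ha
  have lip : ∀ u t, |u| ≤ L0 → |kz ζ (u - L) t - kz ζ (u + L) t| ≤ 16 * L0 / L ^ 2 := by
    intro u t hu
    refine (kz_lip hL (by linarith) ζ t).trans ?_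
    gcongr
  have h1 : (∫ s in (-L)..L, seg L ζ s) - 32 * L0 / L * |a| ≤ ∫ s in (-L)..L, seg L ζ (a - s) := by
    refine shift_ge (continuous_seg hζ L) fun u hu => ?_
    rw [seg, seg, ← intervalIntegral.integral_sub
      ((continuous_kz_right hζ _).intervalIntegrable _ _)
      ((continuous_kz_right hζ _).intervalIntegrable _ _)]
    have := intervalIntegral.norm_integral_le_of_norm_le_const (a := -L) (b := L)
      (C := 16 * L0 / L ^ 2) (f := fun t => kz ζ (u - L) t - kz ζ (u + L) t)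
      fun t _ => lip u t (hu.trans ha)
    rw [Real.norm_eq_abs, abs_of_pos (by linarith : 0 < L - -L)] at this
    refine this.trans (le_of_eq ?_)
    field_simp
    ring
  have h2 : ∫ s in (-L)..L, (seg L ζ (a - s) - 16 * L0 / L ^ 2 * |b|) ≤
      ∫ s in (-L)..L, ∫ t in (-L)..L, kz ζ (a - s) (b - t) := by
    refine intervalIntegral.integral_mono_on hLL
      ((((continuous_seg hζ L).comp (by fun_prop)).sub continuous_const).intervalIntegrable _ _)
      ((continuous_inner hζ L a b).intervalIntegrable _ _) fun s _ => ?_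
    refine shift_ge (continuous_kz_right hζ (a - s)) fun u hu => ?_
    rw [kz_comm ζ (a - s), kz_comm ζ (a - s)]
    exact lip u _ (hu.trans hb)
  have c1 : Continuous fun s => seg L ζ (a - s) := (continuous_seg hζ L).comp (by fun_prop)
  rw [intervalIntegral.integral_sub (c1.intervalIntegrable _ _)
    intervalIntegrable_const, intervalIntegral.integral_const, smul_eq_mul] at h2
  rw [Asq_zero hL.le hζ, Asq_iter hL.le hζ]
  have e1 : 32 * L0 / L * |a| ≤ 32 * L0 ^ 2 / L := by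
    calc 32 * L0 / L * |a| ≤ 32 * L0 / L * L0 := by gcongr
      _ = _ := by ring
  have e2 : (L - -L) * (16 * L0 / L ^ 2 * |b|) ≤ 32 * L0 ^ 2 / L := by
    calc (L - -L) * (16 * L0 / L ^ 2 * |b|) ≤ (L - -L) * (16 * L0 / L ^ 2 * L0) := by
          gcongr
      _ = _ := by field_simp; ring
  have e3 : 64 * L0 ^ 2 / L = 32 * L0 ^ 2 / L + 32 * L0 ^ 2 / L := by ring
  linarith

lemma Asq_anti {L ζ ζ' : ℝ} (hζ : ζ ≠ 0) (h : |ζ| ≤ |ζ'|) : Asq L 0 0 ζ' ≤ Asq L 0 0 ζ := by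
  have hζ' : ζ' ≠ 0 := by
    rintro rfl
    simp only [abs_zero, abs_nonpos_iff] at h
    exact hζ h
  have hc : ∀ {ξ : ℝ}, ξ ≠ 0 → IntegrableOn (fun p : ℝ × ℝ => kz ξ (0 - p.1) (0 - p.2)) (sq L) :=
    fun hξ => ((continuous_kz hξ).comp (f := fun p : ℝ × ℝ => (0 - p.1, 0 - p.2))
      (by fun_prop)).continuousOn.integrableOn_compact (isCompact_sq L)
  exact setIntegral_mono (hc hζ') (hc hζ) fun p => kz_anti hζ h le_rfl le_rfl

/-! ### Radial integrals in the plane -/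

/-- Euclidean length in the plane. -/
def rad (p : ℝ × ℝ) : ℝ := √(p.1 ^ 2 + p.2 ^ 2)

lemma rad_complex (z : ℂ) : rad (Complex.measurableEquivRealProd z) = ‖z‖ := by
  rw [rad, Complex.norm_eq_sqrt_sq_add_sq]
  rfl

lemma integral_rad (F : ℝ → ℝ) :
    ∫ p : ℝ × ℝ, F (rad p) = 2 * Real.pi * ∫ r in Ioi (0 : ℝ), r * F r := by
  rw [← Complex.volume_preserving_equiv_real_prod.integral_comp' (fun p => F (rad p))]
  simp only [rad_complex]
  rw [integral_fun_norm_addHaar (volume : Measure ℂ) F, Complex.finrank_real_complex]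
  have hb : (volume : Measure ℂ).real (Metric.ball 0 1) = Real.pi := by
    rw [Measure.real, Complex.volume_ball]
    simp
  rw [hb]
  simp [mul_assoc]

lemma integrable_rad {F : ℝ → ℝ} (h : IntegrableOn (fun r => r * F r) (Ioi 0)) :
    Integrable fun p : ℝ × ℝ => F (rad p) := by
  rw [← Complex.volume_preserving_equiv_real_prod.integrable_comp_emb
    Complex.measurableEquivRealProd.measurableEmbedding]
  have h1 := (integrable_fun_norm_addHaar (volume : Measure ℂ) (f := F)).2 (by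
    rw [Complex.finrank_real_complex]
    simpa using h)
  refine h1.congr (ae_of_all _ fun z => ?_)
  simp only [Function.comp_apply, rad_complex]

/-- The difference of the kernels outside the disc of radius `R`. -/
def Dd (R ζ r : ℝ) : ℝ := if R < r then 1 / r - 1 / √(r ^ 2 + ζ ^ 2) else 0

lemma Dd_nonneg {R : ℝ} (hR : 0 ≤ R) (ζ r : ℝ) : 0 ≤ Dd R ζ r := by
  unfold Dd
  split_ifs with h
  · have hr : 0 < r := hR.trans_lt h
    exact sub_nonneg.2 (one_div_le_one_div_of_le hr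
      (Real.le_sqrt_of_sq_le (by nlinarith [sq_nonneg ζ])))
  · exact le_rfl

lemma hasDerivAt_prim {ζ : ℝ} (hζ : ζ ≠ 0) (r : ℝ) :
    HasDerivAt (fun r : ℝ => r - √(r ^ 2 + ζ ^ 2)) (1 - r / √(r ^ 2 + ζ ^ 2)) r := by
  have h0 : 0 < ζ ^ 2 := by positivity
  have hp : 0 < r ^ 2 + ζ ^ 2 := by positivity
  have h1 : HasDerivAt (fun r : ℝ => r ^ 2 + ζ ^ 2) (2 * r) r := by
    simpa using (hasDerivAt_pow 2 r).add_const (ζ ^ 2)
  have h2 := (hasDerivAt_id r).sub (h1.sqrt hp.ne')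
  convert! h2 using 1
  have hs : 0 < √(r ^ 2 + ζ ^ 2) := Real.sqrt_pos.2 hp
  field_simp

lemma sqrt_sub_le {R : ℝ} (hR : 0 < R) (ζ : ℝ) : √(R ^ 2 + ζ ^ 2) - R ≤ ζ ^ 2 / (2 * R) := by
  rw [sub_le_iff_le_add]
  apply Real.sqrt_le_iff.2
  refine ⟨by positivity, ?_⟩
  have : (ζ ^ 2 / (2 * R) + R) ^ 2 = R ^ 2 + ζ ^ 2 + (ζ ^ 2 / (2 * R)) ^ 2 := by
    field_simp
    ring
  rw [this]
  nlinarith [sq_nonneg (ζ ^ 2 / (2 * R))]

lemma tendsto_prim (ζ : ℝ) : Tendsto (fun r : ℝ => r - √(r ^ 2 + ζ ^ 2)) atTop (𝓝 0) := by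
  have h1 : Tendsto (fun r : ℝ => ζ ^ 2 / (2 * r)) atTop (𝓝 0) :=
    tendsto_const_nhds.div_atTop (tendsto_id.const_mul_atTop (by norm_num))
  refine squeeze_zero_norm' ?_ h1
  filter_upwards [eventually_gt_atTop 0] with r hr
  have h2 : r ≤ √(r ^ 2 + ζ ^ 2) := Real.le_sqrt_of_sq_le (by nlinarith [sq_nonneg ζ])
  rw [Real.norm_eq_abs, abs_of_nonpos (by linarith), neg_sub]
  exact sqrt_sub_le hr ζ

lemma Dd_radial {R ζ : ℝ} (hR : 0 ≤ R) (hζ : ζ ≠ 0) :
    IntegrableOn (fun r => r * Dd R ζ r) (Ioi 0) ∧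
      ∫ r in Ioi (0 : ℝ), r * Dd R ζ r = √(R ^ 2 + ζ ^ 2) - R := by
  have hn : ∀ r ∈ Ioi R, 0 ≤ 1 - r / √(r ^ 2 + ζ ^ 2) := by
    intro r hr
    have h0 : 0 < ζ ^ 2 := by positivity
    rw [sub_nonneg, div_le_one (Real.sqrt_pos.2 (by positivity))]
    exact Real.le_sqrt_of_sq_le (by nlinarith)
  have h1 := integrableOn_Ioi_deriv_of_nonneg' (a := R) (fun r _ => hasDerivAt_prim hζ r) hn
    (tendsto_prim ζ)
  have h2 := integral_Ioi_of_hasDerivAt_of_nonneg' (a := R) (fun r _ => hasDerivAt_prim hζ r) hn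
    (tendsto_prim ζ)
  have e : (fun r => r * Dd R ζ r) =
      (Ioi R).indicator fun r => 1 - r / √(r ^ 2 + ζ ^ 2) := by
    ext r
    by_cases h : R < r
    · have hr : 0 < r := hR.trans_lt h
      rw [Dd, if_pos h, indicator_of_mem (mem_Ioi.2 h)]
      field_simp
    · rw [Dd, if_neg h, indicator_of_notMem (by simpa using h), mul_zero]
  rw [e]
  constructor
  · exact ((integrable_indicator_iff measurableSet_Ioi).2 h1).integrableOn
  · rw [setIntegral_indicator measurableSet_Ioi, inter_eq_right.2 (Ioi_subset_Ioi hR), h2]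
    ring

lemma integrable_Dd {R ζ : ℝ} (hR : 0 ≤ R) (hζ : ζ ≠ 0) :
    Integrable fun p : ℝ × ℝ => Dd R ζ (rad p) := integrable_rad (Dd_radial hR hζ).1

lemma integral_Dd {R ζ : ℝ} (hR : 0 ≤ R) (hζ : ζ ≠ 0) :
    ∫ p : ℝ × ℝ, Dd R ζ (rad p) = 2 * Real.pi * (√(R ^ 2 + ζ ^ 2) - R) := by
  rw [integral_rad, (Dd_radial hR hζ).2]

lemma rad_sq (p : ℝ × ℝ) : rad p ^ 2 = p.1 ^ 2 + p.2 ^ 2 := Real.sq_sqrt (by positivity)

lemma split_kernel {L ζ : ℝ} (hζ : ζ ≠ 0) :
    ∫ p in sq L, 1 / rad p = Asq L 0 0 ζ + ∫ p in sq L, Dd 0 ζ (rad p) := by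
  have hc : IntegrableOn (fun p : ℝ × ℝ => kz ζ (0 - p.1) (0 - p.2)) (sq L) :=
    ((continuous_kz hζ).comp (f := fun p : ℝ × ℝ => (0 - p.1, 0 - p.2))
      (by fun_prop)).continuousOn.integrableOn_compact (isCompact_sq L)
  rw [Asq, ← integral_add hc (integrable_Dd le_rfl hζ).integrableOn]
  refine integral_congr_ae (ae_restrict_of_ae ?_)
  have hne : ∀ᵐ p : ℝ × ℝ, p ≠ 0 := by rw [ae_iff]; simp
  filter_upwards [hne] with p hp
  have h1 : 0 < rad p := by
    apply Real.sqrt_pos.2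
    by_contra h
    apply hp
    have a1 : p.1 = 0 := by nlinarith [sq_nonneg p.1, sq_nonneg p.2]
    have a2 : p.2 = 0 := by nlinarith [sq_nonneg p.1, sq_nonneg p.2]
    exact Prod.ext a1 a2
  rw [Dd, if_pos h1, rad_sq, kz]
  simp

open Pointwise in
lemma scale_kap {L : ℝ} (hL : 0 < L) : ∫ p in sq L, 1 / rad p = L * kap0 := by
  have h := Measure.setIntegral_comp_smul_of_pos (volume : Measure (ℝ × ℝ))
    (fun p => 1 / rad p) (sq 1) hL
  have e1 : L • sq 1 = sq L := by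
    rw [sq, sq, smul_set_prod, LinearOrderedField.smul_Icc hL]
    simp
  have e2 : ∀ p : ℝ × ℝ, 1 / rad (L • p) = L⁻¹ * (1 / rad p) := by
    intro p
    have : rad (L • p) = L * rad p := by
      rw [rad, rad, Prod.smul_fst, Prod.smul_snd, smul_eq_mul, smul_eq_mul, mul_pow, mul_pow,
        ← mul_add, Real.sqrt_mul (by positivity), Real.sqrt_sq hL.le]
    rw [this, one_div, one_div, mul_inv]
  have e3 : Module.finrank ℝ (ℝ × ℝ) = 2 := by simp
  simp only [e1, e2, e3, integral_const_mul, smul_eq_mul] at h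
  have e4 : kap0 = ∫ p in sq 1, 1 / rad p := rfl
  rw [e4]
  field_simp at h ⊢
  linarith

lemma Asq_center_ge {L ζ : ℝ} (hL : 0 < L) (hζ : ζ ≠ 0) :
    L * kap0 - 2 * Real.pi * |ζ| ≤ Asq L 0 0 ζ := by
  have h1 := split_kernel (L := L) hζ
  rw [scale_kap hL] at h1
  have h2 : ∫ p in sq L, Dd 0 ζ (rad p) ≤ ∫ p, Dd 0 ζ (rad p) :=
    setIntegral_le_integral (integrable_Dd le_rfl hζ)
      (ae_of_all _ fun p => Dd_nonneg le_rfl ζ _)
  rw [integral_Dd le_rfl hζ] at h2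
  simp only [ne_eq, OfNat.ofNat_ne_zero, not_false_eq_true, zero_pow, zero_add, sub_zero,
    Real.sqrt_sq_eq_abs] at h2
  linarith

lemma Asq_center_le {L ζ : ℝ} (hL : 0 < L) (hζ : ζ ≠ 0) :
    Asq L 0 0 ζ ≤ L * kap0 - 2 * Real.pi * |ζ| + Real.pi * ζ ^ 2 / L := by
  have h1 := split_kernel (L := L) hζ
  rw [scale_kap hL] at h1
  have h2 := integral_add_compl (measurableSet_sq L) (integrable_Dd le_rfl hζ)
  rw [integral_Dd le_rfl hζ] at h2
  simp only [ne_eq, OfNat.ofNat_ne_zero, not_false_eq_true, zero_pow, zero_add, sub_zero,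
    Real.sqrt_sq_eq_abs] at h2
  have h3 : ∫ p in (sq L)ᶜ, Dd 0 ζ (rad p) = ∫ p in (sq L)ᶜ, Dd L ζ (rad p) := by
    refine setIntegral_congr_fun (measurableSet_sq L).compl fun p hp => ?_
    have h4 : L < rad p := by
      by_contra h
      have h5 : rad p ^ 2 ≤ L ^ 2 := pow_le_pow_left₀ (Real.sqrt_nonneg _) (not_lt.1 h) 2
      rw [rad_sq] at h5
      apply hp
      exact ⟨mem_Icc.2 (abs_le_of_sq_le_sq' (by nlinarith [sq_nonneg p.2]) hL.le),
        mem_Icc.2 (abs_le_of_sq_le_sq' (by nlinarith [sq_nonneg p.1]) hL.le)⟩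
    simp only [Dd, if_pos h4, if_pos (hL.trans h4)]
  have h4 : ∫ p in (sq L)ᶜ, Dd L ζ (rad p) ≤ ∫ p, Dd L ζ (rad p) :=
    setIntegral_le_integral (integrable_Dd hL.le hζ)
      (ae_of_all _ fun p => Dd_nonneg hL.le ζ _)
  rw [integral_Dd hL.le hζ] at h4
  have h5 := mul_le_mul_of_nonneg_left (sqrt_sub_le hL ζ) (by positivity : 0 ≤ 2 * Real.pi)
  have h6 : 2 * Real.pi * (ζ ^ 2 / (2 * L)) = Real.pi * ζ ^ 2 / L := by field_simp
  linarith

lemma kap0_nonneg : 0 ≤ kap0 := integral_nonneg fun p => by positivity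

lemma kap0_le : kap0 ≤ 16 := by
  have h1 := Asq_center_ge (L := 1) (ζ := 1) one_pos one_ne_zero
  have h2 : Asq 1 0 0 1 ≤ 4 := by
    have h3 := norm_setIntegral_le_of_norm_le_const (μ := volume) (s := sq 1) (C := 1)
      (f := fun p : ℝ × ℝ => kz 1 (0 - p.1) (0 - p.2)) (isCompact_sq 1).measure_lt_top
      fun p _ => by
        rw [Real.norm_of_nonneg (kz_nonneg _ _ _)]
        refine (kz_anti (s := 0) (t := 0) one_ne_zero le_rfl (by simp) (by simp)).trans ?_
        simp [kz]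
    have h4 : volume.real (sq 1) = 4 := by
      rw [sq, Measure.volume_eq_prod, measureReal_prod_prod]
      norm_num
    rw [h4] at h3
    exact (le_abs_self _).trans (by simpa [Asq] using h3)
  have := Real.pi_le_four
  simp only [one_mul, abs_one, mul_one] at h1
  linarith

end

end Vale.Agent.P370Z.SLAB
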